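import Vale.Agent.P181.H788.Prog

set_option autoImplicit false

/-!
# P181, `a = 6`: the growth check, one shape at a time

`t N x y z` is the row of a table of lower bounds for the multiplicities `M(N, 6)` (digits of
`24` bits at the places `e2 + (3 N + 6) e3`), `cd` the packed list of the pairs `(b₀, μ)`, `cl` the
certificate bytes.
-/

noncomputable section

namespace Vale.Agent.P181.H900

open Vale.Agent.P181.H788

/-- list lookup, `0` outside -/
def nth (l : List Nat) : Nat → Nat :=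
  @List.rec Nat (fun _ => Nat → Nat) (fun _ => 0)
    (fun a _ ih i => @Nat.rec (fun _ => Nat) a (fun j _ => ih j) i) l

/-- list lookup, `[]` outside -/
def nthL (l : List (List Nat)) : Nat → List Nat :=
  @List.rec (List Nat) (fun _ => Nat → List Nat) (fun _ => [])
    (fun a _ ih i => @Nat.rec (fun _ => List Nat) a (fun j _ => ih j) i) l

/-- the row `(x, y, z)` of a table -/
def rowL (l : List (List Nat)) (x y z : Nat) : Nat :=
  nth (nthL l x) (Nat.add (Nat.div (Nat.mul y (Nat.sub y 1)) 2) z)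

/-- the digit `(e2, e3)` of a table row of level `N` -/
def dgE (u N e2 e3 : Nat) : Nat :=
  Nat.mod (Nat.shiftRight u (Nat.mul 24 (Nat.add e2 (Nat.mul (Nat.add (Nat.mul 3 N) 6) e3))))
    (Nat.pow 2 24)

/-- the digits `(·, e3)` of the row `(x, y, z)` of the table of level `N` -/
def es (t : Nat → Tb) (N x y z e3 : Nat) : Nat :=
  Nat.mod (Nat.shiftRight (t N x y z) (Nat.mul 24 (Nat.mul (Nat.add (Nat.mul 3 N) 6) e3)))
    (Nat.pow 2 (Nat.mul 24 (Nat.add (Nat.mul 3 N) 6)))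

/-- a field of the `i`-th pair: `0` gives `b₀`, `k = 1, ..., 5` gives `μ_(k+1)` -/
def cf (cd i k : Nat) : Nat :=
  Nat.mod (Nat.shiftRight cd (Nat.add (Nat.mul 48 i) (Nat.mul 8 k))) 256

/-- `μ₂ + ⋯ + μ₆` -/
def csum (cd i : Nat) : Nat :=
  Nat.add (Nat.add (Nat.add (Nat.add (cf cd i 1) (cf cd i 2)) (cf cd i 3)) (cf cd i 4)) (cf cd i 5)

/-- `μ₁` -/
def cm1 (b cd i : Nat) : Nat := Nat.sub (Nat.mul 6 (Nat.sub b (cf cd i 0))) (csum cd i)

/-- disjunction -/
def bo (b c : Bool) : Bool := @Bool.rec (fun _ => Bool) c true b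

/-- the last three entries of `λ - μ` are in order -/
def rc (cd x y z i : Nat) : Bool :=
  bc (Nat.ble (cf cd i 5) z)
    (bc (Nat.ble (Nat.succ (Nat.add z (cf cd i 4))) (Nat.add y (cf cd i 5)))
      (Nat.ble (Nat.succ (Nat.add y (cf cd i 3))) (Nat.add x (cf cd i 4))))

/-- the slice of the lower bounds used for the shapes `(x, y, z; e3)` and the pair `i` -/
def esl (t : Nat → Tb) (cd x y z e3 i : Nat) : Nat :=
  fc (cf cd i 0) fun n => fc (Nat.sub x (cf cd i 3)) fun x' => fc (Nat.sub y (cf cd i 4)) fun y' =>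
    fc (Nat.sub z (cf cd i 5)) fun z' => fc (Nat.sub e3 (cf cd i 2)) fun e3' =>
      es t n x' y' z' e3'

/-- the test for one shape; `v` is the digit of the left side plus `2 ^ (w - 1)`, `m` the number
of pairs -/
def shp (b w : Nat) (t : Nat → Tb) (cd m x y z e1 e2 e3 i v : Nat) : Bool :=
  bo (Nat.ble v (Nat.pow 2 (Nat.sub w 1)))
    (bc (Nat.ble (Nat.succ i) m)
    (bc (rc cd x y z i)
      (bc (Nat.ble (Nat.succ (Nat.add x (cf cd i 2))) (Nat.add e3 (cf cd i 3)))
        (bc (Nat.ble (Nat.succ (Nat.add e3 (cf cd i 1))) (Nat.add e2 (cf cd i 2)))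
          (bc (Nat.ble (Nat.succ (Nat.add e2 (cm1 b cd i))) (Nat.add e1 (cf cd i 1)))
            (Nat.ble v (Nat.add (Nat.pow 2 (Nat.sub w 1))
              (Nat.mod (Nat.shiftRight (esl t cd x y z e3 i)
                (Nat.mul 24 (Nat.sub e2 (cf cd i 1)))) (Nat.pow 2 24)))))))))

/-- the digits `(·, e3)` of the row `(x, y, z)` of the left side, plus `2 ^ (w - 1)` -/
def slu (w S R : Nat) (L : Tb) (x y z e3 : Nat) : Nat :=
  Nat.mod (Nat.shiftRight
    (Nat.mod (Nat.add (L x y z) (off w (Nat.mul S R))) (Nat.pow 2 (Nat.mul w (Nat.mul S R))))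
    (Nat.mul w (Nat.mul S e3))) (Nat.pow 2 (Nat.mul w S))

/-- the same at the places shifted by `c` -/
def slv (w S R : Nat) (L : Tb) (c x y z e3 : Nat) : Nat :=
  fc (Nat.sub x c) fun x' => fc (Nat.sub y c) fun y' => fc (Nat.sub z c) fun z' =>
    fc (Nat.sub e3 c) fun e3' => slu w S R L x' y' z' e3'

/-- all shapes `(x, y, z; e3)`, `e2 = lo, ..., lo + n - 1` -/
def slc (b w S R : Nat) (L : Tb) (t : Nat → Tb) (c cd m x y z U e3 lo k n : Nat) : Bool :=
  allB (fun j => fb (Nat.add lo j) fun e2 =>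
    fb (Nat.mod (Nat.shiftRight k (Nat.mul 8 j)) 256) fun i =>
      fb (Nat.mod (Nat.shiftRight (slv w S R L c x y z e3) (Nat.mul w (Nat.sub e2 c)))
        (Nat.pow 2 w)) fun v =>
        shp b w t cd m x y z (Nat.sub U e2) e2 e3 i v) n

/-- maximum -/
def mx (a b : Nat) : Nat := bt (Nat.ble a b) b a

/-- all shapes `(x, y, z)`, `e3 ≥ lo3`, `e2 ≥ q`; `k` holds the certificate bytes -/
def rws (b w S R : Nat) (L : Tb) (t : Nat → Tb) (c q cd m x y z T n3 : Nat) :
    Nat → Nat → Bool :=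
  @Nat.rec (fun _ => Nat → Nat → Bool) (fun _ _ => true)
    (fun _ ih e3 k => fb (mx (Nat.succ e3) q) fun lo =>
      fb (Nat.sub (Nat.succ (Nat.div (Nat.sub (Nat.sub T e3) 1) 2)) lo) fun n =>
        bc (slc b w S R L t c cd m x y z (Nat.sub T e3) e3 lo k n)
          (fb (Nat.shiftRight k (Nat.mul 8 n)) fun k' => fb (Nat.succ e3) fun e3' => ih e3' k')) n3

/-- the row `(x, y, z)` -/
def rwc (b w S R : Nat) (L : Tb) (t : Nat → Tb) (c q cd m : Nat) (cl : List (List Nat))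
    (x y z : Nat) : Bool :=
  fb (Nat.sub (Nat.add (Nat.mul 6 b) 15) (Nat.add (Nat.add x y) z)) fun T =>
    fb (mx (mx (Nat.succ x) 5) (Nat.sub (Nat.add b 2) (Nat.add (Nat.add x y) z))) fun lo =>
      fb (Nat.sub (Nat.succ (Nat.div (Nat.sub T 3) 3)) lo) fun n3 =>
        rws b w S R L t c q cd m x y z T n3 lo (rowL cl x y z)

/-- the rows `X0 ≤ x < X0 + X1`, `y < Y1`, `Z0 ≤ z < Z1` -/
def gro (b w S R : Nat) (L : Tb) (t : Nat → Tb) (c q cd m : Nat) (cl : List (List Nat))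
    (X0 X1 Y1 Z0 Z1 : Nat) : Bool :=
  allB (fun x => fb (Nat.add X0 x) fun x => allB (fun y => fb y fun y => allB (fun z =>
    fb (Nat.add Z0 z) fun z => rwc b w S R L t c q cd m cl x y z) (Nat.sub (mn y Z1) Z0))
    (mn x Y1)) X1

/-- `μ` is a partition -/
def cpt (b cd i : Nat) : Bool :=
  bc (Nat.ble (cf cd i 5) (cf cd i 4)) (bc (Nat.ble (cf cd i 4) (cf cd i 3))
    (bc (Nat.ble (cf cd i 3) (cf cd i 2)) (bc (Nat.ble (cf cd i 2) (cf cd i 1))
      (Nat.ble (cf cd i 1) (cm1 b cd i)))))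

/-- the `n` pairs: `b₀ ≤ b`, and the table of level `b - b₀` is positive at `μ` (or `b₀ = b`,
`μ = 0`) -/
def cok (b : Nat) (t : Nat → Tb) (cd n : Nat) : Bool :=
  allB (fun i => fb i fun i => fb (Nat.sub b (cf cd i 0)) fun j =>
    bc (Nat.ble (cf cd i 0) b)
      (bc (Nat.ble (csum cd i) (Nat.mul 6 j))
        (bo (Nat.beq j 0)
          (bc (cpt b cd i)
            (fb (Nat.add (cf cd i 3) 2) fun x => fb (Nat.add (cf cd i 4) 1) fun y =>
              fb (cf cd i 5) fun z => fb (Nat.add (cf cd i 1) 4) fun e2 =>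
                fb (Nat.add (cf cd i 2) 3) fun e3 => Nat.ble 1 (dgE (t j x y z) j e2 e3)))))) n

end Vale.Agent.P181.H900
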