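import Vale.Agent.P181.H605.ProgB
import Vale.Agent.P181.H788.TabD
import Vale.Agent.P181.H900.Grow
import Vale.Agent.P181.H900.C12
import Vale.Agent.P181.H900.C14
import Vale.Agent.P181.H900.C16
import Vale.Agent.P181.H900.G11

set_option autoImplicit false

/-!
# P181, `a = 6`: the checks with the left table of the pair `(6, 12)` (kernel part)
-/

noncomputable section

namespace Vale.Agent.P181.H900.G12

open Vale.Agent.P181.H788 Vale.Agent.P181.H605

/-- the left table of the pair `(6, 12)` -/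
def L : Tb := LB.T6 24 88 28 59136 20 12

/-- its digit tests -/
def T : Bool := LB.tests 24 88 28 59136 20 12 21 1 1 2 5 9

/-- the pair `(6, 12)`, `0 ≤ λ₆ < 2` -/
def chk12 : Bool := gro 12 24 88 28 L tt 0 16 C12.cd 8 C12.cl 0 21 3 0 2

/-- the pair `(6, 14)`, `2 ≤ λ₆ < 4` -/
def chk14 : Bool := gro 14 24 88 28 L tt 2 18 C14.cd 24 C14.cl 0 24 100 2 4

/-- the pair `(6, 16)`, `4 ≤ λ₆ < 6` -/
def chk16 : Bool := gro 16 24 88 28 L tt 4 20 C16.cd 87 C16.cl 0 27 100 4 6

/-- all tests -/
def run : Bool := bc T (bc chk12 (bc chk14 chk16))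

theorem run_true : run = true := by
  decide +kernel

end Vale.Agent.P181.H900.G12
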