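import Vale.Agent.P181.H605.ProgB
import Vale.Agent.P181.H788.TabD
import Vale.Agent.P181.H900.Grow
import Vale.Agent.P181.H900.C13
import Vale.Agent.P181.H900.C15
import Vale.Agent.P181.H900.C17
import Vale.Agent.P181.H900.G12

set_option autoImplicit false

/-!
# P181, `a = 6`: the checks with the left table of the pair `(6, 13)` (kernel part)
-/

noncomputable section

namespace Vale.Agent.P181.H900.G13

open Vale.Agent.P181.H788 Vale.Agent.P181.H605

/-- the left table of the pair `(6, 13)` -/
def L : Tb := LB.T6 25 94 30 70500 21 13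

/-- its digit tests -/
def T : Bool := LB.tests 25 94 30 70500 21 13 22 1 1 2 5 10

/-- the pair `(6, 13)`, `0 ≤ λ₆ < 2` -/
def chk13 : Bool := gro 13 25 94 30 L tt 0 17 C13.cd 21 C13.cl 0 22 100 0 2

/-- the pair `(6, 15)`, `2 ≤ λ₆ < 4` -/
def chk15 : Bool := gro 15 25 94 30 L tt 2 19 C15.cd 42 C15.cl 0 25 100 2 4

/-- the pair `(6, 17)`, `4 ≤ λ₆ < 6` -/
def chk17 : Bool := gro 17 25 94 30 L tt 4 21 C17.cd 152 C17.cl 0 28 100 4 6

/-- all tests -/
def run : Bool := bc T (bc chk13 (bc chk15 chk17))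

theorem run_true : run = true := by
  decide +kernel

end Vale.Agent.P181.H900.G13
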