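import Vale.Agent.P181.H605.ProgB
import Vale.Agent.P181.H788.TabD
import Vale.Agent.P181.H900.Grow
import Vale.Agent.P181.H900.C14
import Vale.Agent.P181.H900.C16
import Vale.Agent.P181.H900.G13

set_option autoImplicit false

/-!
# P181, `a = 6`: the checks with the left table of the pair `(6, 14)` (kernel part)
-/

noncomputable section

namespace Vale.Agent.P181.H900.G14

open Vale.Agent.P181.H788 Vale.Agent.P181.H605

/-- the left table of the pair `(6, 14)` -/
def L : Tb := LB.T6 25 100 32 80000 21 14

/-- its digit tests -/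
def T : Bool := LB.tests 25 100 32 80000 21 14 24 1 1 3 5 10

/-- the pair `(6, 14)`, `0 ≤ λ₆ < 2` -/
def chk14 : Bool := gro 14 25 100 32 L tt 0 18 C14.cd 24 C14.cl 0 24 100 0 2

/-- the pair `(6, 16)`, `2 ≤ λ₆ < 4` -/
def chk16 : Bool := gro 16 25 100 32 L tt 2 20 C16.cd 87 C16.cl 0 27 100 2 4

/-- all tests -/
def run : Bool := bc T (bc chk14 chk16)

theorem run_true : run = true := by
  decide +kernel

end Vale.Agent.P181.H900.G14
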