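import Vale.Agent.P181.H900.Grow
import Vale.Agent.P181.H51.Level2
import Vale.Agent.P181.H248.RhsMul
import Vale.Agent.P181.H558.Reduce6
import Vale.Agent.P181.H385.Lhs3
import Vale.Agent.P181.H788.FLev

set_option autoImplicit false

/-!
# P181, `a = 6`: soundness of the growth check
-/

namespace Vale.Agent.P181.H900

open Vale.Agent.P181 Vale.Agent.P181.H280 Vale.Agent.P181.H788 Vale.Agent.P181.H51

lemma bo_iff (b c : Bool) : bo b c = true ↔ b = true ∨ c = true := by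
  cases b <;> simp [bo]

lemma bc_iff (b c : Bool) : bc b c = true ↔ b = true ∧ c = true := by
  cases b <;> simp [bc]

lemma ble_iff (a b : ℕ) : Nat.ble a b = true ↔ a ≤ b := ⟨Nat.le_of_ble_eq_true, Nat.ble_eq_true_of_le⟩

lemma mx_eq (a b : ℕ) : mx a b = max a b := by
  rw [mx, H605.bt_ble]
  split_ifs with h
  · exact (max_eq_right h).symm
  · exact (max_eq_left (not_le.1 h).le).symm

/-- The tables `t` are lower bounds for the multiplicities `M(N, 6)`. -/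
def TabOK (t : ℕ → Tb) : Prop :=
  ∀ N e1 e2 e3 x y z : ℕ, e2 < e1 → e3 < e2 → x < e3 → y < x → z < y →
    e1 + e2 + e3 + x + y + z = 15 + 6 * N →
    dgE (t N x y z) N e2 e3 ≤ plethMult N 6 6 ![e1 - 5, e2 - 4, e3 - 3, x - 2, y - 1, z]

lemma slice (u w S e2 e3 : ℕ) (h : e2 < S) :
    ((u >>> (w * (S * e3))) % 2 ^ (w * S)) >>> (w * e2) % 2 ^ w =
      u >>> (w * (e2 + S * e3)) % 2 ^ w := by
  apply Nat.eq_of_testBit_eq
  intro i
  rw [Nat.testBit_mod_two_pow, Nat.testBit_mod_two_pow, Nat.testBit_shiftRight,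
    Nat.testBit_shiftRight, Nat.testBit_mod_two_pow, Nat.testBit_shiftRight]
  by_cases hi : i < w
  · have h1 : w * e2 + i < w * S := by
      calc w * e2 + i < w * e2 + w := by omega
        _ = w * (e2 + 1) := by ring
        _ ≤ w * S := Nat.mul_le_mul_left _ h
    have h2 : w * (S * e3) + (w * e2 + i) = w * (e2 + S * e3) + i := by ring
    simp only [hi, h1, decide_true, Bool.true_and, h2]
  · simp only [hi, decide_false, Bool.false_and]

/-- Reading a digit of a slice. -/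
lemma es_dig (t : ℕ → Tb) (N x y z e2 e3 : ℕ) (h : e2 < 3 * N + 6) :
    Nat.mod (Nat.shiftRight (es t N x y z e3) (Nat.mul 24 e2)) (Nat.pow 2 24) =
      dgE (t N x y z) N e2 e3 := by
  exact slice (t N x y z) 24 (3 * N + 6) e2 e3 h

lemma slu_dig (w S R : ℕ) (L : Tb) (x y z e2 e3 : ℕ) (h : e2 < S) :
    Nat.mod (Nat.shiftRight (slu w S R L x y z e3) (Nat.mul w e2)) (Nat.pow 2 w) =
      ((L x y z + off w (S * R)) % 2 ^ (w * (S * R))) >>> (w * (e2 + S * e3)) % 2 ^ w :=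
  slice _ w S e2 e3 h

lemma slv_eq (w S R : ℕ) (L : Tb) (c x y z e3 : ℕ) :
    slv w S R L c x y z e3 = slu w S R L (x - c) (y - c) (z - c) (e3 - c) := by
  unfold slv
  rw [H605.fc_eq, H605.fc_eq, H605.fc_eq, H605.fc_eq]
  rfl

lemma esl_eq (t : ℕ → Tb) (cd x y z e3 i : ℕ) : esl t cd x y z e3 i =
    es t (cf cd i 0) (x - cf cd i 3) (y - cf cd i 4) (z - cf cd i 5) (e3 - cf cd i 2) := by
  unfold esl
  rw [H605.fc_eq, H605.fc_eq, H605.fc_eq, H605.fc_eq, H605.fc_eq]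
  rfl

/-- The pair `i`, as a partition. -/
def cmu (b cd i : ℕ) : Fin 6 → ℕ :=
  ![cm1 b cd i, cf cd i 1, cf cd i 2, cf cd i 3, cf cd i 4, cf cd i 5]

/-- What the check of the pairs gives. -/
lemma cok_sound {b cd m : ℕ} {t : ℕ → Tb} (ht : TabOK t)
    (h : cok b t cd m = true) {i : ℕ} (hi : i < m) :
    cf cd i 0 ≤ b ∧ csum cd i ≤ 6 * (b - cf cd i 0) ∧
      (b = cf cd i 0 ∨ 1 ≤ plethMult (b - cf cd i 0) 6 6 (cmu b cd i)) := by
  have h1 := (allB_iff _ m).1 h i hi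
  rw [fb_eq, fb_eq, bc_iff, bc_iff, bo_iff, bc_iff, fb_eq, fb_eq, fb_eq, fb_eq, fb_eq, ble_iff,
    ble_iff] at h1
  obtain ⟨h2, h3, h4⟩ := h1
  refine ⟨h2, h3, ?_⟩
  rcases h4 with h4 | ⟨h4, h5⟩
  · left
    have h6 : b - cf cd i 0 = 0 := Nat.eq_of_beq_eq_true h4
    omega
  · right
    rw [cpt, bc_iff, bc_iff, bc_iff, bc_iff, ble_iff, ble_iff, ble_iff, ble_iff, ble_iff] at h4
    obtain ⟨g1, g2, g3, g4, g5⟩ := h4
    have hc : csum cd i = cf cd i 1 + cf cd i 2 + cf cd i 3 + cf cd i 4 + cf cd i 5 := rfl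
    have hm : cm1 b cd i = 6 * (b - cf cd i 0) - csum cd i := rfl
    have h3' : csum cd i ≤ 6 * (b - cf cd i 0) := h3
    have h7 := ht (b - cf cd i 0) (cm1 b cd i + 5) (cf cd i 1 + 4) (cf cd i 2 + 3)
      (cf cd i 3 + 2) (cf cd i 4 + 1) (cf cd i 5) (by omega) (by omega) (by omega) (by omega)
      (by omega) (by omega)
    exact (ble_iff _ _).1 h5 |>.trans h7

/-- **The test of a shape.** -/
theorem shp_sound {b w cd m x y z e1 e2 e3 i p : ℕ} {t : ℕ → Tb} (ht : TabOK t)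
    (hc : cok b t cd m = true) (hsum : e1 + e2 + e3 + x + y + z = 15 + 6 * b)
    (h : shp b w t cd m x y z e1 e2 e3 i (p + 2 ^ (w - 1)) = true) :
    p ≤ plethMult b 6 6 ![e1 - 5, e2 - 4, e3 - 3, x - 2, y - 1, z] := by
  rw [shp, bo_iff, bc_iff, bc_iff, bc_iff, bc_iff, bc_iff, rc, bc_iff, bc_iff, ble_iff, ble_iff,
    ble_iff, ble_iff, ble_iff, ble_iff, ble_iff, ble_iff, ble_iff] at h
  rcases h with h | ⟨h0, ⟨h1, h2, h3⟩, h4, h5, h6, h7⟩
  · have h8 : p + 2 ^ (w - 1) ≤ 2 ^ (w - 1) := h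
    have h9 : p = 0 := by omega
    rw [h9]
    exact Nat.zero_le _
  · obtain ⟨c1, c2, c3⟩ := cok_sound ht hc h0
    have hcs : csum cd i = cf cd i 1 + cf cd i 2 + cf cd i 3 + cf cd i 4 + cf cd i 5 := rfl
    have hm : cm1 b cd i = 6 * (b - cf cd i 0) - csum cd i := rfl
    have h2' : z + cf cd i 4 + 1 ≤ y + cf cd i 5 := h2
    have h3' : y + cf cd i 3 + 1 ≤ x + cf cd i 4 := h3
    have h4' : x + cf cd i 2 + 1 ≤ e3 + cf cd i 3 := h4
    have h5' : e3 + cf cd i 1 + 1 ≤ e2 + cf cd i 2 := h5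
    have h6' : e2 + cm1 b cd i + 1 ≤ e1 + cf cd i 1 := h6
    have hmz : cf cd i 5 ≤ z := h1
    rw [esl_eq] at h7
    have h8 := es_dig t (cf cd i 0) (x - cf cd i 3) (y - cf cd i 4) (z - cf cd i 5)
      (e2 - cf cd i 1) (e3 - cf cd i 2) (by omega)
    have h9 := ht (cf cd i 0) (e1 - cm1 b cd i) (e2 - cf cd i 1) (e3 - cf cd i 2)
      (x - cf cd i 3) (y - cf cd i 4) (z - cf cd i 5) (by omega) (by omega) (by omega)
      (by omega) (by omega) (by omega)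
    have h10 : p ≤ dgE (t (cf cd i 0) (x - cf cd i 3) (y - cf cd i 4)
        (z - cf cd i 5)) (cf cd i 0) (e2 - cf cd i 1) (e3 - cf cd i 2) := by
      rw [← h8]
      have h11 : p + 2 ^ (w - 1) ≤ 2 ^ (w - 1) + _ := h7
      exact Nat.le_of_add_le_add_left ((Nat.add_comm _ _).trans_le h11)
    refine (h10.trans h9).trans ?_
    rcases c3 with c3 | c3
    · have k0 : cm1 b cd i = 0 := by omega
      have k1 : cf cd i 1 = 0 := by omega
      have k2 : cf cd i 2 = 0 := by omega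
      have k3 : cf cd i 3 = 0 := by omega
      have k4 : cf cd i 4 = 0 := by omega
      have k5 : cf cd i 5 = 0 := by omega
      rw [k0, k1, k2, k3, k4, k5, ← c3]
      exact le_rfl
    · have h12 := H248.rhsMul 6 6 (cf cd i 0) (b - cf cd i 0)
        ![e1 - cm1 b cd i - 5, e2 - cf cd i 1 - 4, e3 - cf cd i 2 - 3, x - cf cd i 3 - 2,
          y - cf cd i 4 - 1, z - cf cd i 5] (cmu b cd i) c3
      have h13 : cf cd i 0 + (b - cf cd i 0) = b := by omega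
      have h14 : (fun j => (![e1 - cm1 b cd i - 5, e2 - cf cd i 1 - 4, e3 - cf cd i 2 - 3,
          x - cf cd i 3 - 2, y - cf cd i 4 - 1, z - cf cd i 5] : Fin 6 → ℕ) j + cmu b cd i j) =
          ![e1 - 5, e2 - 4, e3 - 3, x - 2, y - 1, z] := by
        funext j
        fin_cases j
        · change e1 - cm1 b cd i - 5 + cm1 b cd i = e1 - 5
          omega
        · change e2 - cf cd i 1 - 4 + cf cd i 1 = e2 - 4
          omega
        · change e3 - cf cd i 2 - 3 + cf cd i 2 = e3 - 3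
          omega
        · change x - cf cd i 3 - 2 + cf cd i 3 = x - 2
          omega
        · change y - cf cd i 4 - 1 + cf cd i 4 = y - 1
          omega
        · change z - cf cd i 5 + cf cd i 5 = z
          omega
      rw [h13, h14] at h12
      exact h12

lemma slc_sound {b w S R c cd m x y z U e3 lo k n : ℕ} {L : Tb} {t : ℕ → Tb}
    (h : slc b w S R L t c cd m x y z U e3 lo k n = true) {e2 : ℕ} (h1 : lo ≤ e2)
    (h2 : e2 < lo + n) : ∃ i, shp b w t cd m x y z (U - e2) e2 e3 i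
      (Nat.mod (Nat.shiftRight (slu w S R L (x - c) (y - c) (z - c) (e3 - c))
        (Nat.mul w (e2 - c))) (Nat.pow 2 w)) = true := by
  obtain ⟨j, rfl⟩ := Nat.exists_eq_add_of_le h1
  have h3 := (allB_iff _ n).1 h j (by omega)
  rw [fb_eq, fb_eq, fb_eq, slv_eq] at h3
  exact ⟨_, h3⟩

lemma rws_sound {b w S R c q cd m x y z T : ℕ} {L : Tb} {t : ℕ → Tb} :
    ∀ (n3 e3 k : ℕ), rws b w S R L t c q cd m x y z T n3 e3 k = true → ∀ f3, e3 ≤ f3 →
      f3 < e3 + n3 → ∃ k', slc b w S R L t c cd m x y z (T - f3) f3 (max (f3 + 1) q) k'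
        ((T - f3 - 1) / 2 + 1 - max (f3 + 1) q) = true := by
  intro n3
  induction n3 with
  | zero => intro e3 k _ f3 h1 h2; omega
  | succ n3 ih =>
    intro e3 k h f3 h1 h2
    have h3 : rws b w S R L t c q cd m x y z T (n3 + 1) e3 k =
        fb (mx (Nat.succ e3) q) fun lo =>
          fb (Nat.sub (Nat.succ (Nat.div (Nat.sub (Nat.sub T e3) 1) 2)) lo) fun n =>
            bc (slc b w S R L t c cd m x y z (Nat.sub T e3) e3 lo k n)
              (fb (Nat.shiftRight k (Nat.mul 8 n)) fun k' => fb (Nat.succ e3) fun e3' =>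
                rws b w S R L t c q cd m x y z T n3 e3' k') := rfl
    rw [h3, fb_eq, fb_eq, bc_iff, fb_eq, fb_eq, mx_eq] at h
    rcases Nat.eq_or_lt_of_le h1 with rfl | h4
    · exact ⟨k, h.1⟩
    · exact ih (e3 + 1) _ h.2 f3 h4 (by omega)

/-- **The check of a row.** -/
lemma rwc_sound {b w S R c q cd m x y z : ℕ} {L : Tb} {t : ℕ → Tb}
    {cl : List (List ℕ)} (h : rwc b w S R L t c q cd m cl x y z = true) {e1 e2 e3 : ℕ}
    (hsum : e1 + e2 + e3 + x + y + z = 15 + 6 * b) (h12 : e2 < e1) (h23 : e3 < e2)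
    (h3x : x < e3) (h5 : 5 ≤ e3) (h4 : q ≤ e2) (hD : b + 2 ≤ e3 + x + y + z) :
    ∃ i, shp b w t cd m x y z e1 e2 e3 i
      (Nat.mod (Nat.shiftRight (slu w S R L (x - c) (y - c) (z - c) (e3 - c))
        (Nat.mul w (e2 - c))) (Nat.pow 2 w)) = true := by
  rw [rwc, fb_eq, fb_eq, fb_eq, mx_eq, mx_eq] at h
  have h6 : ∃ T, T = 6 * b + 15 - (x + y + z) := ⟨_, rfl⟩
  obtain ⟨T, hT⟩ := h6
  have h7 : rws b w S R L t c q cd m x y z T
      ((T - 3) / 3 + 1 - max (max (x + 1) 5) (b + 2 - (x + y + z)))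
      (max (max (x + 1) 5) (b + 2 - (x + y + z))) (rowL cl x y z) = true := by
    rw [hT]
    exact h
  obtain ⟨k', h8⟩ := rws_sound _ _ _ h7 e3 (by omega) (by omega)
  obtain ⟨i, h9⟩ := slc_sound h8 (e2 := e2) (by omega) (by omega)
  have h10 : T - e3 - e2 = e1 := by omega
  rw [h10] at h9
  exact ⟨i, h9⟩

lemma gro_sound {b w S R c q cd m X0 X1 Y1 Z0 Z1 : ℕ} {L : Tb} {t : ℕ → Tb}
    {cl : List (List ℕ)} (h : gro b w S R L t c q cd m cl X0 X1 Y1 Z0 Z1 = true) {x y z : ℕ}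
    (h0 : X0 ≤ x) (h1 : x < X0 + X1) (hyx : y < x) (hzy : z < y) (hy : y < Y1) (hz0 : Z0 ≤ z)
    (hz : z < Z1) : rwc b w S R L t c q cd m cl x y z = true := by
  obtain ⟨j, rfl⟩ := Nat.exists_eq_add_of_le h0
  have h3 := (allB_iff _ X1).1 h j (by omega)
  rw [fb_eq, H605.mn_eq] at h3
  have h4 := (allB_iff _ _).1 h3 y (lt_min hyx hy)
  obtain ⟨i, rfl⟩ := Nat.exists_eq_add_of_le hz0
  rw [fb_eq, H605.mn_eq] at h4
  have h5 := (allB_iff _ (min y Z1 - Z0)).1 h4 i (by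
    have := lt_min hzy hz
    omega)
  rw [fb_eq] at h5
  exact h5

/-- The digits of the table `L` of the pair `(6, b')`, plus `2 ^ (w - 1)`, are the multiplicities
`M(6, b')` in the rows of `Rg`. -/
def Reads (w S R b : ℕ) (Rg : ℕ → ℕ → ℕ → Prop) (L : Tb) : Prop :=
  ∀ e1 e2 e3 x y z : ℕ, e2 < e1 → e3 < e2 → x < e3 → y < x → z < y →
    e1 + e2 + e3 + x + y + z = dg 6 b → Rg x y z → e3 < R → e1 + 2 ≤ S →
    ((L x y z + off w (S * R)) % 2 ^ (w * (S * R))) >>> (w * (e2 + S * e3)) % 2 ^ w =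
      plethMult 6 b 6 ![e1 - 5, e2 - 4, e3 - 3, x - 2, y - 1, z] + 2 ^ (w - 1)

/-- **The growth check.** The left side is the table of the pair `(6, b')`, read after the removal of
`c = 2 K` columns. -/
theorem growG {b b' K w S R : ℕ} (hb : b = b' + 2 * K) {Rg : ℕ → ℕ → ℕ → Prop} {L : Tb}
    (hL : Reads w S R b' Rg L) {t : ℕ → Tb} (ht : TabOK t) {cd m : ℕ}
    (hc : cok b t cd m = true) {cl : List (List ℕ)} {q : ℕ}
    {X0 X1 Y1 Z1 : ℕ} (h : gro b w S R L t (2 * K) q cd m cl X0 X1 Y1 (2 * K) Z1 = true)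
    (hR : 2 * b' + 4 ≤ R) (hS : 5 * b + 15 ≤ q + 2 * K + S)
    (hRg : ∀ x y z, z < y → y < x → x < X0 + X1 - 2 * K → y < Y1 - 2 * K → z < Z1 - 2 * K →
      4 * x + y + z ≤ 6 * b' + 9 → Rg x y z)
    {lam : Fin 6 → ℕ} (hanti : Antitone lam) (hsum : ∑ i, lam i = 6 * b) (hq : q ≤ lam 1 + 4)
    (c2 : 2 ≤ lam 2) (c3 : b ≤ lam 2 + lam 3 + lam 4 + lam 5 + 4)
    (h0 : X0 ≤ lam 3 + 2) (h1 : lam 3 + 2 < X0 + X1)
    (hY : lam 4 + 1 < Y1) (hZ0 : 2 * K ≤ lam 5) (hZ : lam 5 < Z1) : H558.Fo b lam := by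
  have hs : lam 0 + lam 1 + lam 2 + lam 3 + lam 4 + lam 5 = 6 * b := by
    rw [← hsum, Fin.sum_univ_six]
  have a01 : lam 1 ≤ lam 0 := hanti (by decide)
  have a12 : lam 2 ≤ lam 1 := hanti (by decide)
  have a23 : lam 3 ≤ lam 2 := hanti (by decide)
  have a34 : lam 4 ≤ lam 3 := hanti (by decide)
  have a45 : lam 5 ≤ lam 4 := hanti (by decide)
  have h2 := gro_sound h (x := lam 3 + 2) (y := lam 4 + 1) (z := lam 5) h0 h1 (by omega)
    (by omega) hY hZ0 hZ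
  obtain ⟨i, h3⟩ := rwc_sound h2 (e1 := lam 0 + 5) (e2 := lam 1 + 4) (e3 := lam 2 + 3)
    (by omega) (by omega) (by omega) (by omega) (by omega) (by omega) (by omega)
  rw [slu_dig w S R L _ _ _ _ _ (by omega),
    hL (lam 0 + 5 - 2 * K) (lam 1 + 4 - 2 * K)
      (lam 2 + 3 - 2 * K) (lam 3 + 2 - 2 * K) (lam 4 + 1 - 2 * K)
      (lam 5 - 2 * K) (by omega) (by omega) (by omega)
      (by omega) (by omega) (by unfold dg; omega)
      (hRg _ _ _ (by omega) (by omega) (by omega) (by omega) (by omega) (by omega))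
      (by omega) (by omega)] at h3
  have h4 := shp_sound ht hc (by omega) h3
  have h5 : (![lam 0 + 5 - 5, lam 1 + 4 - 4, lam 2 + 3 - 3, lam 3 + 2 - 2, lam 4 + 1 - 1,
      lam 5] : Fin 6 → ℕ) = lam := by
    funext j
    fin_cases j <;> rfl
  rw [h5] at h4
  refine le_trans ?_ h4
  have h6 := H385.lhs_iter 6 b' K (by omega) (![lam 0 + 5 - 2 * K - 5, lam 1 + 4 - 2 * K - 4,
    lam 2 + 3 - 2 * K - 3, lam 3 + 2 - 2 * K - 2, lam 4 + 1 - 2 * K - 1, lam 5 - 2 * K])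
  have h7 : (fun i => (![lam 0 + 5 - 2 * K - 5, lam 1 + 4 - 2 * K - 4,
      lam 2 + 3 - 2 * K - 3, lam 3 + 2 - 2 * K - 2, lam 4 + 1 - 2 * K - 1,
      lam 5 - 2 * K] : Fin 6 → ℕ) i + 2 * K) = lam := by
    funext j
    fin_cases j
    · change lam 0 + 5 - 2 * K - 5 + 2 * K = lam 0
      omega
    · change lam 1 + 4 - 2 * K - 4 + 2 * K = lam 1
      omega
    · change lam 2 + 3 - 2 * K - 3 + 2 * K = lam 2
      omega
    · change lam 3 + 2 - 2 * K - 2 + 2 * K = lam 3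
      omega
    · change lam 4 + 1 - 2 * K - 1 + 2 * K = lam 4
      omega
    · change lam 5 - 2 * K + 2 * K = lam 5
      omega
  rw [h7, ← hb] at h6
  exact h6

/-- Tables with a stride larger than the degree. -/
theorem reads_of_son {w S R b B' : ℕ} {Rg : ℕ → ℕ → ℕ → Prop} {L : Tb}
    (hL : SOn w S R 6 b Rg L) (hS : dg 6 b < S) (hRS : R ≤ S) (hB : BOn S R 6 b Rg B')
    (hw : 0 < w) (hB' : B' < 2 ^ (w - 1)) : Reads w S R b Rg L :=
  fun _ _ _ _ _ _ h12 h23 h3x hxy hyz hsum hR h3 _ =>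
    row_value hL hS hRS hB hw hB' h12 h23 h3x hxy hyz hsum hR h3

/-- Tables with a small stride. -/
theorem reads_of_lv {w S R b B' : ℕ} {Rg : ℕ → ℕ → ℕ → Prop} {L : Tb}
    (hL : H788.FL.Lv w S R 6 b Rg L B') (hw : 0 < w) (hB' : B' < 2 ^ (w - 1)) :
    Reads w S R b Rg L :=
  fun _ _ _ _ _ _ h12 h23 h3x hxy hyz hsum hR h3 h1 =>
    H788.FL.row_valueF hL.son hL.bf hw hB' h12 h23 h3x hxy hyz h1 hsum hR h3

/-- **The growth check**, stride larger than the degree. -/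
theorem grow' {b b' K w S R B' : ℕ} (hb : b = b' + 2 * K) {Rg : ℕ → ℕ → ℕ → Prop} {L : Tb}
    (hL : SOn w S R 6 b' Rg L)
    (hS : dg 6 b' < S) (hRS : R ≤ S) (hB : BOn S R 6 b' Rg B') (hw : 0 < w)
    (hB' : B' < 2 ^ (w - 1)) {t : ℕ → Tb} (ht : TabOK t) {cd m : ℕ}
    (hc : cok b t cd m = true) {cl : List (List ℕ)} {q : ℕ}
    {X0 X1 Y1 Z1 : ℕ} (h : gro b w S R L t (2 * K) q cd m cl X0 X1 Y1 (2 * K) Z1 = true)
    (hR : 2 * b' + 4 ≤ R) (hS' : 5 * b + 15 ≤ q + 2 * K + S)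
    (hRg : ∀ x y z, z < y → y < x → x < X0 + X1 - 2 * K → y < Y1 - 2 * K → z < Z1 - 2 * K →
      4 * x + y + z ≤ 6 * b' + 9 → Rg x y z)
    {lam : Fin 6 → ℕ} (hanti : Antitone lam) (hsum : ∑ i, lam i = 6 * b) (hq : q ≤ lam 1 + 4)
    (c2 : 2 ≤ lam 2) (c3 : b ≤ lam 2 + lam 3 + lam 4 + lam 5 + 4)
    (h0 : X0 ≤ lam 3 + 2) (h1 : lam 3 + 2 < X0 + X1)
    (hY : lam 4 + 1 < Y1) (hZ0 : 2 * K ≤ lam 5) (hZ : lam 5 < Z1) : H558.Fo b lam :=
  growG hb (reads_of_son hL hS hRS hB hw hB') ht hc h hR hS' hRg hanti hsum hq c2 c3 h0 h1 hY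
    hZ0 hZ

end Vale.Agent.P181.H900
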