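
set_option autoImplicit false

namespace Vale.Agent.P181.H900.C7

/-- the pairs -/
def cd : Nat := 0x6000000000007

/-- the certificate bytes -/
def cl : List (List Nat) :=
  [[],
   [],
   [],
   [0, 0x1, 0xff0000000000000000ffffffff],
   [0, 0, 0xff0000000000000000000000],
   [0, 0, 0, 0, 0, 0, 0xffff, 0xffffff],
   [],
   [0, 0, 0, 0, 0, 0, 0, 0, 0, 0, 0, 0, 0, 0, 0, 0xffff, 0xffff],
   [0, 0, 0, 0, 0, 0, 0, 0, 0, 0, 0, 0, 0, 0, 0, 0, 0xff0000000000000000000000000000000000],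
   [0, 0, 0, 0, 0, 0, 0, 0, 0, 0, 0, 0, 0, 0, 0, 0, 0xff, 0, 0, 0, 0, 0xff, 0xff0000000000ffff, 0, 0, 0, 0, 0, 0xffff00ffffffffff, 0xffffffffffffff],
   [0, 0, 0, 0, 0, 0, 0, 0, 0, 0, 0, 0, 0, 0, 0, 0, 0xff000000, 0, 0, 0, 0, 0xff000000, 0xff0000, 0, 0, 0, 0, 0, 0xffff00, 0xff00, 0, 0, 0, 0, 0, 0, 0xff00, 0xff],
   [0, 0, 0xff0000, 0, 0xff00ff, 0, 0, 0xffff, 0, 0, 0xffff, 0xff, 0, 0, 0, 0xff, 0xff, 0, 0, 0, 0, 0xff],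
   [0xff00, 0, 0xff]]

end Vale.Agent.P181.H900.C7
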