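
set_option autoImplicit false

namespace Vale.Agent.P181.H900.C8

/-- the pairs -/
def cd : Nat := 0x7000000000008

/-- the certificate bytes -/
def cl : List (List Nat) :=
  [[],
   [],
   [],
   [0, 0x1000000000000000000000001010000000000000000000001010100000000000000000000010101010000000000000000000101010101000000000000000000010101010101, 0x1000000000000000000000001010000000000000000000001010100000000000000000000010101010000000000000000000101ffffff],
   [0, 0x1000000000000000000000001010000000000000000000001010100000000000000000000010101010000000000000000000101010101, 0x100000000000000000000000101000000000000000000000101010000000000000000000001010101, 0x100000000000000000000000101000000000000000000000101010000000000000000000001010101, 0x10000000000000000000000010100000000000000000000010101, 0x100ff0000000000000000000101],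
   [0, 0x10000000000000000000000010100000000000000000000010101, 0x100000000000000000000000101, 0x100000000000000000000000101, 0x1, 0xff, 0xff, 0xff000000000000000000ffff, 0xffff0000000000ffffffffff, 0xff0000000000000000ff0000000000000000ffff00000000000000ffffff00000000ffffffffff00ffffffffffffffffffff],
   [0, 0x1, 0, 0, 0, 0, 0, 0, 0, 0xff],
   [0, 0, 0, 0, 0, 0, 0, 0, 0, 0, 0, 0, 0, 0xff00000000000000000000000000000000000000000000000000000000000000000000000000000000ff, 0, 0xff, 0xff, 0xff0000000000000000000000000000000000000000000000000000000000000000000000000000ffffff, 0xffff00ff00ffffffff],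
   [0, 0, 0, 0, 0, 0, 0, 0, 0, 0xff000000000000000000000000000000000000000000000000000000000000000000, 0, 0, 0, 0, 0, 0, 0, 0, 0, 0, 0, 0, 0, 0xff0000000000000000000000000000000000000000000000000000, 0xff0000000000000000000000000000000000000000000000],
   [0, 0, 0, 0, 0, 0, 0, 0, 0, 0, 0, 0, 0, 0, 0, 0, 0, 0, 0, 0, 0, 0, 0, 0xff00000000000000000000000000000000ff, 0xff, 0, 0, 0, 0xff, 0xff000000ffff, 0xff000000ff000000ffff00ffffff, 0xff0000ff000000ffffffffffff],
   [0, 0, 0, 0, 0, 0, 0, 0, 0, 0, 0, 0, 0, 0xff0000000000000000000000, 0, 0, 0, 0, 0, 0, 0, 0, 0xff0000000000000000000000, 0, 0, 0, 0, 0, 0xff0000000000000000000000, 0, 0, 0xff00ff00000000, 0, 0, 0, 0, 0xff000000ff0000000000, 0xff00ff00000000, 0xffffff000000, 0xffff000000],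
   [0, 0, 0, 0, 0, 0, 0, 0, 0, 0xff0000000000ff, 0, 0, 0xff000000, 0xff, 0, 0, 0xff000000000000, 0, 0xff00ff, 0, 0, 0xff000000000000, 0xff, 0xffff, 0xffffff, 0, 0, 0, 0xff, 0xffffff, 0xffffff, 0xffff, 0, 0, 0, 0, 0xffffffff, 0xffffff, 0xffff, 0xff, 0, 0, 0, 0, 0, 0xffffff, 0xffff, 0xff, 0xff],
   [0, 0, 0xff000000000000, 0, 0, 0xff000000, 0, 0, 0xff0000, 0xff, 0, 0xff0000, 0xff00, 0xff, 0, 0xff0000, 0, 0, 0xff, 0, 0, 0xff00, 0, 0, 0, 0, 0, 0, 0, 0xff],
   [0, 0xff0000, 0xff, 0xff00, 0xff, 0xff, 0xff, 0xff, 0, 0, 0xff],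
   []]

end Vale.Agent.P181.H900.C8
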