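import Vale.Agent.P181.H788.TabD
import Vale.Agent.P181.H900.Grow
import Vale.Agent.P181.H900.C7
import Vale.Agent.P181.H900.C8
import Vale.Agent.P181.H900.C9
import Vale.Agent.P181.H900.C10
import Vale.Agent.P181.H900.C11
import Vale.Agent.P181.H900.C12
import Vale.Agent.P181.H900.C13
import Vale.Agent.P181.H900.C14
import Vale.Agent.P181.H900.C15
import Vale.Agent.P181.H900.C16
import Vale.Agent.P181.H900.C17
import Vale.Agent.P181.H900.C18
import Vale.Agent.P181.H900.C19

set_option autoImplicit false

/-!
# P181, `a = 6`: the pairs of the growth checks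
-/

namespace Vale.Agent.P181.H900

open Vale.Agent.P181.H788

theorem cok7 : cok 7 tt C7.cd 2 = true := by
  decide +kernel

theorem cok8 : cok 8 tt C8.cd 2 = true := by
  decide +kernel

theorem cok9 : cok 9 tt C9.cd 3 = true := by
  decide +kernel

theorem cok10 : cok 10 tt C10.cd 5 = true := by
  decide +kernel

theorem cok11 : cok 11 tt C11.cd 11 = true := by
  decide +kernel

theorem cok12 : cok 12 tt C12.cd 8 = true := by
  decide +kernel

theorem cok13 : cok 13 tt C13.cd 21 = true := by
  decide +kernel

theorem cok14 : cok 14 tt C14.cd 24 = true := by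
  decide +kernel

theorem cok15 : cok 15 tt C15.cd 42 = true := by
  decide +kernel

theorem cok16 : cok 16 tt C16.cd 87 = true := by
  decide +kernel

theorem cok17 : cok 17 tt C17.cd 152 = true := by
  decide +kernel

theorem cok18 : cok 18 tt C18.cd 105 = true := by
  decide +kernel

theorem cok19 : cok 19 tt C19.cd 170 = true := by
  decide +kernel

end Vale.Agent.P181.H900
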