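import Vale.Agent.P181.H900.G13
import Vale.Agent.P181.H900.GrowS
import Vale.Agent.P181.H900.Cok
import Vale.Agent.P181.H788.TabS
import Vale.Agent.P181.H605.LeftT

set_option autoImplicit false

/-!
# P181, `a = 6`: the checks with the left table of the pair `(6, 13)`
-/

namespace Vale.Agent.P181.H900.G13

open Vale.Agent.P181.H788 Vale.Agent.P181.H788.FL Vale.Agent.P181.H51 Vale.Agent.P181.H605

theorem lv (h : T = true) :
    LvB 25 94 30 6 13 (RgL 22 (6 * 13 + 9) (6 * 13 + 9) 1) L (2 ^ 21 - 1) :=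
  left_tables (by norm_num) (by norm_num) (by norm_num) (by norm_num) (by norm_num) (by norm_num)
    (by norm_num) (by norm_num) (by norm_num) (by norm_num) (by decide +kernel)
    (by decide +kernel) (by decide +kernel) (by decide +kernel) (by decide +kernel)
    (by decide +kernel) h

theorem reads (h : T = true) :
    Reads 25 94 30 13 (RgL 22 (6 * 13 + 9) (6 * 13 + 9) 1) L :=
  reads_of_son (lv h).so (by norm_num [dg]) (by norm_num) (lv h).bo (by norm_num) (by norm_num)

/-- the pair `(6, 13)`, `0 ≤ λ₆ ≤ 1` -/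
theorem _root_.Vale.Agent.P181.H900.g_13_13 {lam : Fin 6 → ℕ} (hn : H558.Need 13 lam)
    (hz0 : 0 ≤ lam 5) (hz : lam 5 < 2) : H558.Fo 13 lam := by
  obtain ⟨hanti, hsum, c1, c2, c3, c4, c5⟩ := hn
  have h := run_true
  unfold run at h
  simp only [bc_iff] at h
  have hs : lam 0 + lam 1 + lam 2 + lam 3 + lam 4 + lam 5 = 6 * 13 := by
    rw [← hsum, Fin.sum_univ_six]
  have a01 : lam 1 ≤ lam 0 := hanti (by decide)
  have a12 : lam 2 ≤ lam 1 := hanti (by decide)
  have a23 : lam 3 ≤ lam 2 := hanti (by decide)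
  have a34 : lam 4 ≤ lam 3 := hanti (by decide)
  have a45 : lam 5 ≤ lam 4 := hanti (by decide)
  have hm : H558.maxLast 13 = 3 := by decide
  have h1 : gro 13 25 94 30 L tt (2 * 0) 17 C13.cd 21 C13.cl 0 22 100 (2 * 0) 2 = true :=
    h.2.1
  exact growG (b' := 13) (K := 0) rfl (reads h.1) tt_ok cok13 h1 (by norm_num) (by norm_num)
    (fun x y z _ _ _ _ _ _ => rgL_of (by omega) (by omega) (by omega)) hanti hsum (by omega) c2 c3 (by omega)
    (by omega) (by omega) (by omega) (by omega)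

/-- the pair `(6, 15)`, `2 ≤ λ₆ ≤ 3` -/
theorem _root_.Vale.Agent.P181.H900.g_13_15 {lam : Fin 6 → ℕ} (hn : H558.Need 15 lam)
    (hz0 : 2 ≤ lam 5) (hz : lam 5 < 4) : H558.Fo 15 lam := by
  obtain ⟨hanti, hsum, c1, c2, c3, c4, c5⟩ := hn
  have h := run_true
  unfold run at h
  simp only [bc_iff] at h
  have hs : lam 0 + lam 1 + lam 2 + lam 3 + lam 4 + lam 5 = 6 * 15 := by
    rw [← hsum, Fin.sum_univ_six]
  have a01 : lam 1 ≤ lam 0 := hanti (by decide)
  have a12 : lam 2 ≤ lam 1 := hanti (by decide)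
  have a23 : lam 3 ≤ lam 2 := hanti (by decide)
  have a34 : lam 4 ≤ lam 3 := hanti (by decide)
  have a45 : lam 5 ≤ lam 4 := hanti (by decide)
  have hm : H558.maxLast 15 = 5 := by decide
  have h1 : gro 15 25 94 30 L tt (2 * 1) 19 C15.cd 42 C15.cl 0 25 100 (2 * 1) 4 = true :=
    h.2.2.1
  exact growG (b' := 13) (K := 1) rfl (reads h.1) tt_ok cok15 h1 (by norm_num) (by norm_num)
    (fun x y z _ _ _ _ _ _ => rgL_of (by omega) (by omega) (by omega)) hanti hsum (by omega) c2 c3 (by omega)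
    (by omega) (by omega) (by omega) (by omega)

/-- the pair `(6, 17)`, `4 ≤ λ₆ ≤ 5` -/
theorem _root_.Vale.Agent.P181.H900.g_13_17 {lam : Fin 6 → ℕ} (hn : H558.Need 17 lam)
    (hz0 : 4 ≤ lam 5) (hz : lam 5 < 6) : H558.Fo 17 lam := by
  obtain ⟨hanti, hsum, c1, c2, c3, c4, c5⟩ := hn
  have h := run_true
  unfold run at h
  simp only [bc_iff] at h
  have hs : lam 0 + lam 1 + lam 2 + lam 3 + lam 4 + lam 5 = 6 * 17 := by
    rw [← hsum, Fin.sum_univ_six]
  have a01 : lam 1 ≤ lam 0 := hanti (by decide)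
  have a12 : lam 2 ≤ lam 1 := hanti (by decide)
  have a23 : lam 3 ≤ lam 2 := hanti (by decide)
  have a34 : lam 4 ≤ lam 3 := hanti (by decide)
  have a45 : lam 5 ≤ lam 4 := hanti (by decide)
  have hm : H558.maxLast 17 = 5 := by decide
  have h1 : gro 17 25 94 30 L tt (2 * 2) 21 C17.cd 152 C17.cl 0 28 100 (2 * 2) 6 = true :=
    h.2.2.2
  exact growG (b' := 13) (K := 2) rfl (reads h.1) tt_ok cok17 h1 (by norm_num) (by norm_num)
    (fun x y z _ _ _ _ _ _ => rgL_of (by omega) (by omega) (by omega)) hanti hsum (by omega) c2 c3 (by omega)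
    (by omega) (by omega) (by omega) (by omega)

end Vale.Agent.P181.H900.G13
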