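import Vale.Agent.P181.H900.G6S
import Vale.Agent.P181.H900.G7S
import Vale.Agent.P181.H900.G8S
import Vale.Agent.P181.H900.G9S
import Vale.Agent.P181.H900.G10S
import Vale.Agent.P181.H900.G11S
import Vale.Agent.P181.H900.G12S
import Vale.Agent.P181.H900.G13S
import Vale.Agent.P181.H900.G14S
import Vale.Agent.P181.H900.G15S
import Vale.Agent.P181.H900.G16S
import Vale.Agent.P181.H900.G17S
import Vale.Agent.P181.H900.G18S
import Vale.Agent.P181.H900.G19S

set_option autoImplicit false

/-!
# P181, `a = 6`: all pairs `(6, b)`, `7 ≤ b ≤ 19`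
-/

namespace Vale.Agent.P181.H900

open Vale.Agent.P181.H558

theorem need7 {lam : Fin 6 → ℕ} (h : Need 7 lam) : Fo 7 lam := by
  have hm := h.2.2.2.2.2.1
  simp only [maxLast] at hm
  norm_num at hm
  exact g_7_7 h (by omega) (by omega)

theorem need8 {lam : Fin 6 → ℕ} (h : Need 8 lam) : Fo 8 lam := by
  have hm := h.2.2.2.2.2.1
  simp only [maxLast] at hm
  norm_num at hm
  by_cases c0 : lam 5 < 2
  · exact g_8_8 h (by omega) c0
  exact g_6_8 h (by omega) (by omega)

theorem need9 {lam : Fin 6 → ℕ} (h : Need 9 lam) : Fo 9 lam := by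
  have hm := h.2.2.2.2.2.1
  simp only [maxLast] at hm
  norm_num at hm
  by_cases c0 : lam 5 < 2
  · exact g_9_9 h (by omega) c0
  exact g_7_9 h (by omega) (by omega)

theorem need10 {lam : Fin 6 → ℕ} (h : Need 10 lam) : Fo 10 lam := by
  have hm := h.2.2.2.2.2.1
  simp only [maxLast] at hm
  norm_num at hm
  by_cases c0 : lam 5 < 2
  · exact g_10_10 h (by omega) c0
  by_cases c2 : lam 5 < 4
  · exact g_8_10 h (by omega) c2
  exact g_6_10 h (by omega) (by omega)

theorem need11 {lam : Fin 6 → ℕ} (h : Need 11 lam) : Fo 11 lam := by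
  have hm := h.2.2.2.2.2.1
  simp only [maxLast] at hm
  norm_num at hm
  by_cases c0 : lam 5 < 2
  · exact g_11_11 h (by omega) c0
  by_cases c2 : lam 5 < 4
  · exact g_9_11 h (by omega) c2
  exact g_7_11 h (by omega) (by omega)

theorem need12 {lam : Fin 6 → ℕ} (h : Need 12 lam) : Fo 12 lam := by
  have hm := h.2.2.2.2.2.1
  simp only [maxLast] at hm
  norm_num at hm
  exact g_12_12 h (by omega) (by omega)

theorem need13 {lam : Fin 6 → ℕ} (h : Need 13 lam) : Fo 13 lam := by
  have hm := h.2.2.2.2.2.1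
  simp only [maxLast] at hm
  norm_num at hm
  by_cases c0 : lam 5 < 2
  · exact g_13_13 h (by omega) c0
  exact g_11_13 h (by omega) (by omega)

theorem need14 {lam : Fin 6 → ℕ} (h : Need 14 lam) : Fo 14 lam := by
  have hm := h.2.2.2.2.2.1
  simp only [maxLast] at hm
  norm_num at hm
  by_cases c0 : lam 5 < 2
  · exact g_14_14 h (by omega) c0
  by_cases c2 : lam 5 < 4
  · exact g_12_14 h (by omega) c2
  exact g_10_14 h (by omega) (by omega)

theorem need15 {lam : Fin 6 → ℕ} (h : Need 15 lam) : Fo 15 lam := by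
  have hm := h.2.2.2.2.2.1
  simp only [maxLast] at hm
  norm_num at hm
  by_cases c0 : lam 5 < 2
  · exact g_15_15 h (by omega) c0
  by_cases c2 : lam 5 < 4
  · exact g_13_15 h (by omega) c2
  exact g_11_15 h (by omega) (by omega)

theorem need16 {lam : Fin 6 → ℕ} (h : Need 16 lam) : Fo 16 lam := by
  have hm := h.2.2.2.2.2.1
  simp only [maxLast] at hm
  norm_num at hm
  by_cases c0 : lam 5 < 2
  · exact g_16_16 h (by omega) c0
  by_cases c2 : lam 5 < 4
  · exact g_14_16 h (by omega) c2
  exact g_12_16 h (by omega) (by omega)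

theorem need17 {lam : Fin 6 → ℕ} (h : Need 17 lam) : Fo 17 lam := by
  have hm := h.2.2.2.2.2.1
  simp only [maxLast] at hm
  norm_num at hm
  by_cases c0 : lam 5 < 2
  · exact g_17_17 h (by omega) c0
  by_cases c2 : lam 5 < 4
  · exact g_15_17 h (by omega) c2
  exact g_13_17 h (by omega) (by omega)

theorem need18 {lam : Fin 6 → ℕ} (h : Need 18 lam) : Fo 18 lam := by
  have hm := h.2.2.2.2.2.1
  simp only [maxLast] at hm
  norm_num at hm
  by_cases c0 : lam 5 < 2
  · exact g_18_18 h (by omega) c0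
  exact g_16_18 h (by omega) (by omega)

theorem need19 {lam : Fin 6 → ℕ} (h : Need 19 lam) : Fo 19 lam := by
  have hm := h.2.2.2.2.2.1
  simp only [maxLast] at hm
  norm_num at hm
  by_cases c0 : lam 5 < 2
  · exact g_19_19 h (by omega) c0
  by_cases c2 : lam 5 < 4
  · exact g_17_19 h (by omega) c2
  exact g_15_19 h (by omega) (by omega)

/-- all pairs `(6, b)` with `7 ≤ b ≤ 19` -/
theorem need_all (b : ℕ) (h7 : 7 ≤ b) (h20 : b < 20) {lam : Fin 6 → ℕ} (h : Need b lam) :
    Fo b lam := by
  interval_cases b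
  · exact need7 h
  · exact need8 h
  · exact need9 h
  · exact need10 h
  · exact need11 h
  · exact need12 h
  · exact need13 h
  · exact need14 h
  · exact need15 h
  · exact need16 h
  · exact need17 h
  · exact need18 h
  · exact need19 h

end Vale.Agent.P181.H900
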