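import Vale.Agent.P181.H558.LeftPE
import Vale.Agent.P181.H788.TabD
import Vale.Agent.P181.H900.Grow
import Vale.Agent.P181.H900.C10
import Vale.Agent.P181.H900.C14

set_option autoImplicit false

/-!
# P181, `a = 6`: the checks with the left table of the pair `(6, 10)` (kernel part)
-/

noncomputable section

namespace Vale.Agent.P181.H900.G10

open Vale.Agent.P181.H788 Vale.Agent.P181.H558.LP

/-- the pair `(6, 10)`, `0 ≤ λ₆ < 2` -/
def chk10 : Bool := gro 10 22 63 24 LF10 tt 0 14 C10.cd 5 C10.cl 0 18 100 0 2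

/-- the pair `(6, 14)`, `4 ≤ λ₆ < 6` -/
def chk14 : Bool := gro 14 22 63 24 LF10 tt 4 18 C14.cd 24 C14.cl 0 24 100 4 6

/-- all tests -/
def run : Bool := bc LG10 (bc chk10 chk14)

theorem run_true : run = true := by
  decide +kernel

end Vale.Agent.P181.H900.G10
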