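import Vale.Agent.P181.H51.ProgBR
import Vale.Agent.P181.H788.TabD
import Vale.Agent.P181.H900.Grow
import Vale.Agent.P181.H900.C18

set_option autoImplicit false

/-!
# P181, `a = 6`: the checks with the left table of the pair `(6, 18)` (kernel part)
-/

noncomputable section

namespace Vale.Agent.P181.H900.G18

open Vale.Agent.P181.H788 Vale.Agent.P181.H605

/-- the left table of the pair `(6, 18)` -/
def L : Tb := H51.LB.U6 29 124 40 143840 25 18

/-- its digit tests -/
def T : Bool := H51.LB.testsR 29 124 40 143840 25 18 30 1 1 3 6 12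

/-- the pair `(6, 18)`, `0 ≤ λ₆ < 2` -/
def chk18 : Bool := gro 18 29 124 40 L tt 0 22 C18.cd 105 C18.cl 0 30 100 0 2

/-- all tests -/
def run : Bool := bc T chk18

theorem run_true : run = true := by
  decide +kernel

end Vale.Agent.P181.H900.G18
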