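import Vale.Agent.P181.H900.G6
import Vale.Agent.P181.H900.GrowS
import Vale.Agent.P181.H900.Cok
import Vale.Agent.P181.H788.TabS
import Vale.Agent.P181.H558.LeftPES

set_option autoImplicit false

/-!
# P181, `a = 6`: the checks with the left table of the pair `(6, 6)`
-/

namespace Vale.Agent.P181.H900.G6

open Vale.Agent.P181.H788 Vale.Agent.P181.H788.FL Vale.Agent.P181.H558.LP

theorem reads (h : LG6 = true) : Reads 16 47 16 6 (Rg 6) LF6 :=
  reads_of_lv (lv6 h) (by norm_num) (by norm_num)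

/-- the pair `(6, 8)`, `2 ≤ λ₆ ≤ 3` -/
theorem _root_.Vale.Agent.P181.H900.g_6_8 {lam : Fin 6 → ℕ} (hn : H558.Need 8 lam)
    (hz0 : 2 ≤ lam 5) (hz : lam 5 < 4) : H558.Fo 8 lam := by
  obtain ⟨hanti, hsum, c1, c2, c3, c4, c5⟩ := hn
  have h := run_true
  unfold run at h
  simp only [bc_iff] at h
  have hs : lam 0 + lam 1 + lam 2 + lam 3 + lam 4 + lam 5 = 6 * 8 := by
    rw [← hsum, Fin.sum_univ_six]
  have a01 : lam 1 ≤ lam 0 := hanti (by decide)
  have a12 : lam 2 ≤ lam 1 := hanti (by decide)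
  have a23 : lam 3 ≤ lam 2 := hanti (by decide)
  have a34 : lam 4 ≤ lam 3 := hanti (by decide)
  have a45 : lam 5 ≤ lam 4 := hanti (by decide)
  have hm : H558.maxLast 8 = 3 := by decide
  have h1 : gro 8 16 47 16 LF6 tt (2 * 1) 12 C8.cd 2 C8.cl 0 15 100 (2 * 1) 4 = true :=
    h.2.1
  exact growG (b' := 6) (K := 1) rfl (reads h.1) tt_ok cok8 h1 (by norm_num) (by norm_num)
    (fun x y z _ _ _ _ _ _ => ⟨by omega, by omega⟩) hanti hsum (by omega) c2 c3 (by omega)
    (by omega) (by omega) (by omega) (by omega)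

/-- the pair `(6, 10)`, `4 ≤ λ₆ ≤ 5` -/
theorem _root_.Vale.Agent.P181.H900.g_6_10 {lam : Fin 6 → ℕ} (hn : H558.Need 10 lam)
    (hz0 : 4 ≤ lam 5) (hz : lam 5 < 6) : H558.Fo 10 lam := by
  obtain ⟨hanti, hsum, c1, c2, c3, c4, c5⟩ := hn
  have h := run_true
  unfold run at h
  simp only [bc_iff] at h
  have hs : lam 0 + lam 1 + lam 2 + lam 3 + lam 4 + lam 5 = 6 * 10 := by
    rw [← hsum, Fin.sum_univ_six]
  have a01 : lam 1 ≤ lam 0 := hanti (by decide)
  have a12 : lam 2 ≤ lam 1 := hanti (by decide)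
  have a23 : lam 3 ≤ lam 2 := hanti (by decide)
  have a34 : lam 4 ≤ lam 3 := hanti (by decide)
  have a45 : lam 5 ≤ lam 4 := hanti (by decide)
  have hm : H558.maxLast 10 = 5 := by decide
  have h1 : gro 10 16 47 16 LF6 tt (2 * 2) 14 C10.cd 5 C10.cl 0 18 100 (2 * 2) 6 = true :=
    h.2.2
  exact growG (b' := 6) (K := 2) rfl (reads h.1) tt_ok cok10 h1 (by norm_num) (by norm_num)
    (fun x y z _ _ _ _ _ _ => ⟨by omega, by omega⟩) hanti hsum (by omega) c2 c3 (by omega)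
    (by omega) (by omega) (by omega) (by omega)

end Vale.Agent.P181.H900.G6
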