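import Vale.Agent.P181.H558.LeftPE
import Vale.Agent.P181.H788.TabD
import Vale.Agent.P181.H900.Grow
import Vale.Agent.P181.H900.C8
import Vale.Agent.P181.H900.C10

set_option autoImplicit false

/-!
# P181, `a = 6`: the checks with the left table of the pair `(6, 8)` (kernel part)
-/

noncomputable section

namespace Vale.Agent.P181.H900.G8

open Vale.Agent.P181.H788 Vale.Agent.P181.H558.LP

/-- the pair `(6, 8)`, `0 ≤ λ₆ < 2` -/
def chk8 : Bool := gro 8 19 55 20 LF8 tt 0 12 C8.cd 2 C8.cl 0 15 100 0 2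

/-- the pair `(6, 10)`, `2 ≤ λ₆ < 4` -/
def chk10 : Bool := gro 10 19 55 20 LF8 tt 2 14 C10.cd 5 C10.cl 0 18 100 2 4

/-- all tests -/
def run : Bool := bc LG8 (bc chk8 chk10)

theorem run_true : run = true := by
  decide +kernel

end Vale.Agent.P181.H900.G8
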