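import Vale.Agent.P181.H558.LeftPE
import Vale.Agent.P181.H788.TabD
import Vale.Agent.P181.H900.Grow
import Vale.Agent.P181.H900.C9
import Vale.Agent.P181.H900.C11

set_option autoImplicit false

/-!
# P181, `a = 6`: the checks with the left table of the pair `(6, 9)` (kernel part)
-/

noncomputable section

namespace Vale.Agent.P181.H900.G9

open Vale.Agent.P181.H788 Vale.Agent.P181.H558.LP

/-- the pair `(6, 9)`, `0 ≤ λ₆ < 2` -/
def chk9 : Bool := gro 9 20 59 22 LF9 tt 0 13 C9.cd 3 C9.cl 0 16 100 0 2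

/-- the pair `(6, 11)`, `2 ≤ λ₆ < 4` -/
def chk11 : Bool := gro 11 20 59 22 LF9 tt 2 15 C11.cd 11 C11.cl 0 19 100 2 4

/-- all tests -/
def run : Bool := bc LG9 (bc chk9 chk11)

theorem run_true : run = true := by
  decide +kernel

end Vale.Agent.P181.H900.G9
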